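import Vale.Agent.P061.Treewidth.Count
import Vale.Agent.P061.Treewidth.FromDecomposition

open Vale.Agent.P061.Treewidth

/-- The strong thin tree conjecture for graphs of bounded treewidth. -/
theorem Vale.Agent.Results.P061.BoundedTreewidth.result :
    ∀ t : ℕ, ∃ C : ℕ, ∀ (V E : Type) [Fintype V] [Fintype E] (ends : E → V × V) (k : ℕ),
      Nonempty V → (∀ e, (ends e).1 ≠ (ends e).2) → TreewidthAtMost ends t → 1 ≤ k →
      EdgeConnected ends k →
      ∃ T : Finset E, IsSpanningTree ends T ∧
        ∀ S : Set V, k * (cutEdges ends T S).ncard ≤ C * (cutEdges ends Finset.univ S).ncard := by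
  intro t
  refine ⟨Elim.thinConst t, fun V E _ _ ends k hV hloop htw hk hc => ?_⟩
  classical
  obtain ⟨el⟩ := exists_elim hloop htw
  obtain ⟨v₀, h0, h1, h2⟩ := el.exists_root hk hc
  exact Elim.Rooted.exists_thin (el := el) ⟨hk, hc, h0, h1, h2⟩
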