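import Vale.Agent.P061.Dense.Count

open Vale.Agent.P061.Dense

/-- The strong thin tree conjecture for graphs of linear minimum degree, polynomially in the density. -/
theorem Vale.Agent.Results.P061.DenseGraphs.result :
    ∀ (V : Type) [Fintype V] (G : SimpleGraph V) (t k : ℕ), Nonempty V → 1 ≤ t →
      (∀ v, Fintype.card V ≤ t * {u | G.Adj v u}.ncard) → 1 ≤ k →
      (∀ S : Set V, S.Nonempty → S ≠ Set.univ →
        k ≤ {p : V × V | p.1 ∈ S ∧ p.2 ∉ S ∧ G.Adj p.1 p.2}.ncard) →
      ∃ T : SimpleGraph V, T ≤ G ∧ T.IsTree ∧ ∀ S : Set V,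
        k * {p : V × V | p.1 ∈ S ∧ p.2 ∉ S ∧ T.Adj p.1 p.2}.ncard ≤
          400 * t ^ 5 * {p : V × V | p.1 ∈ S ∧ p.2 ∉ S ∧ G.Adj p.1 p.2}.ncard := by
  intro V _ G t k hV ht hdeg hk hcut
  classical
  have hdeg' : ∀ v, Fintype.card V ≤ t * G.degree v := fun v => by
    have h := hdeg v
    rwa [← SimpleGraph.neighborSet, Set.ncard_eq_toFinset_card', ← SimpleGraph.neighborFinset_def,
      SimpleGraph.card_neighborFinset_eq_degree] at h
  have hG : G.Connected := by
    refine ⟨fun a b => ?_⟩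
    by_contra hab
    have h := hcut {x | G.Reachable a x} ⟨a, .refl a⟩ fun h => hab (Set.eq_univ_iff_forall.1 h b)
    rw [show {p : V × V | p.1 ∈ {x | G.Reachable a x} ∧ p.2 ∉ {x | G.Reachable a x} ∧ G.Adj p.1 p.2}
        = ∅ from Set.eq_empty_iff_forall_notMem.2 fun p hp => hp.2.1 (hp.1.trans hp.2.2.reachable),
      Set.ncard_empty] at h
    omega
  obtain ⟨f, hf⟩ := exists_good G t ht hdeg'
  obtain ⟨T, hTG, hT, hout, hin⟩ := exists_adapted_tree G t ht f hf hG
  refine ⟨T, hTG, hT, fun S => ?_⟩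
  by_cases hS : S.Nonempty ∧ S ≠ Set.univ
  · have hS' : S = ((S.toFinset : Finset V) : Set V) := (Set.coe_toFinset S).symm
    have hk' := hcut S hS.1 hS.2
    rw [hS', ncard_cut] at hk'
    rw [hS', ncard_cut, ncard_cut]
    have hkn : k ≤ Fintype.card V := by
      obtain ⟨v, -⟩ := hS.1
      have hne : ({v} : Set V) ≠ Set.univ := fun h => by
        obtain ⟨w, hw⟩ : ∃ w, w ≠ v := by
          obtain ⟨x, hx⟩ := hS.1
          obtain ⟨y, hy⟩ := (Set.ne_univ_iff_exists_notMem S).1 hS.2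
          by_contra h'
          push_neg at h'
          exact hy (by rwa [h' y, ← h' x])
        exact hw (Set.eq_univ_iff_forall.1 h w)
      have h := hcut {v} (Set.singleton_nonempty v) hne
      rw [show ({v} : Set V) = (({v} : Finset V) : Set V) by simp, ncard_cut] at h
      refine h.trans ?_
      simp only [eP, Finset.sum_singleton, ← Finset.card_filter]
      exact (Finset.card_le_univ _)
    refine (cut_bound G t f hf T hout hin _ k hk' hkn).trans (Nat.mul_le_mul_right _ ?_)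
    have : t ^ 2 ≤ t ^ 5 := Nat.pow_le_pow_right ht (by norm_num)
    omega
  · have : {p : V × V | p.1 ∈ S ∧ p.2 ∉ S ∧ T.Adj p.1 p.2} = ∅ :=
      Set.eq_empty_iff_forall_notMem.2 fun p hp =>
        hS ⟨⟨p.1, hp.1⟩, fun h => hp.2.1 (h ▸ Set.mem_univ _)⟩
    simp [this]
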