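import Mathlib

/-!
Lower bound `(4 - ε) / k` for the thinness that can be guaranteed in `k`-edge-connected
multigraphs: complete graphs with parallel edges.
-/

open Finset

namespace Vale.Agent.P061

/-- The edges of a multigraph with end map `ends` that have exactly one end in `S`. -/
def cut {V E : Type} (ends : E → V × V) (T : Finset E) (S : Set V) : Set E :=
  {e | e ∈ T ∧ ((ends e).1 ∈ S ↔ (ends e).2 ∉ S)}

/-- `T` consists of `|V| - 1` edge copies forming a tree on all of `V`. -/
def SpanningTree {V E : Type} [Fintype V] (ends : E → V × V) (T : Finset E) : Prop :=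
  T.card + 1 = Fintype.card V ∧
    (SimpleGraph.fromEdgeSet ((fun e => s((ends e).1, (ends e).2)) '' (T : Set E))).IsTree

/-- The edge copies of the complete graph on `n` vertices with `m` parallel edges per pair. -/
abbrev KEdge (n m : ℕ) : Type := Fin m × {p : Fin n × Fin n // p.1 < p.2}

theorem cut_card (n m : ℕ) (S : Finset (Fin n)) :
    Nat.card (cut (fun e : KEdge n m => e.2.val) Finset.univ (S : Set (Fin n)))
      = m * (S.card * (n - S.card)) := by
  classical
  have hset : cut (fun e : KEdge n m => e.2.val) Finset.univ (S : Set (Fin n))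
      = ((Finset.univ : Finset (KEdge n m)).filter
          (fun e => (e.2.val.1 ∈ S ↔ e.2.val.2 ∉ S)) : Set (KEdge n m)) := by
    ext e; simp [cut]
  rw [hset, Nat.card_coe_set_eq, Set.ncard_coe_finset]
  have : m * (S.card * (n - S.card))
      = ((Finset.univ : Finset (Fin m)) ×ˢ (S ×ˢ Sᶜ)).card := by
    simp [Finset.card_compl]
  rw [this]
  refine Finset.card_bij'
    (fun e _ => (e.1, if e.2.val.1 ∈ S then e.2.val else e.2.val.swap))
    (fun x hx => (x.1, ⟨if x.2.1 < x.2.2 then x.2 else x.2.swap, by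
      simp only [Finset.mem_product, Finset.mem_compl] at hx
      split
      · assumption
      · rename_i h
        refine lt_of_le_of_ne (le_of_not_gt h) ?_
        intro heq
        exact hx.2.2 ((show x.2.2 = x.2.1 from heq) ▸ hx.2.1)⟩)) ?_ ?_ ?_ ?_
  · intro e he
    simp only [Finset.mem_filter, Finset.mem_univ, true_and] at he
    simp only [Finset.mem_product, Finset.mem_univ, Finset.mem_compl, true_and]
    by_cases h : e.2.val.1 ∈ S
    · rw [if_pos h]; exact ⟨h, he.mp h⟩
    · rw [if_neg h]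
      have h2 : e.2.val.2 ∈ S := by by_contra h2; exact h (he.mpr h2)
      exact ⟨h2, h⟩
  · intro x hx
    simp only [Finset.mem_product, Finset.mem_univ, Finset.mem_compl, true_and] at hx
    simp only [Finset.mem_filter, Finset.mem_univ, true_and]
    split <;> simp [hx.1, hx.2]
  · intro e he
    obtain ⟨i, ⟨⟨u, v⟩, huv⟩⟩ := e
    simp only [Prod.mk.injEq, Subtype.mk.injEq, true_and]
    by_cases h : u ∈ S
    · simp [h, huv]
    · simp [h, huv.not_gt]
  · intro x hx
    obtain ⟨i, u, v⟩ := x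
    simp only [Finset.mem_product, Finset.mem_univ, Finset.mem_compl, true_and] at hx
    simp only [Prod.mk.injEq, true_and]
    by_cases h : u < v
    · simp [h, hx.1]
    · simp [h, hx.2]

end Vale.Agent.P061

open Vale.Agent.P061

theorem Vale.Agent.Results.P061.FourLowerBound.result :
    ∀ ε : ℝ, 0 < ε → ∃ k₀ : ℕ, ∀ k : ℕ, k₀ ≤ k →
      ∃ (n : ℕ) (E : Type) (_ : Fintype E) (ends : E → Fin n × Fin n),
        2 ≤ n ∧ (∀ e, (ends e).1 ≠ (ends e).2) ∧
        (∀ S : Set (Fin n), S.Nonempty → S ≠ Set.univ →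
          k ≤ Nat.card (cut ends Finset.univ S)) ∧
        (∃ T, SpanningTree ends T) ∧
        ∀ T, SpanningTree ends T →
          ∃ S : Set (Fin n), S.Nonempty ∧ S ≠ Set.univ ∧
            (4 - ε) / k * (Nat.card (cut ends Finset.univ S) : ℝ)
              < (Nat.card (cut ends T S) : ℝ) := by
  classical
  intro ε hε
  obtain ⟨n, hn2, hn⟩ : ∃ n : ℕ, 2 ≤ n ∧ 16 < ε * n := by
    obtain ⟨n, hn⟩ := exists_nat_gt (16 / ε)
    refine ⟨n + 2, by omega, ?_⟩
    rw [div_lt_iff₀ hε] at hn
    push_cast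
    nlinarith
  have hn1 : (1 : ℝ) ≤ n := by exact_mod_cast (by omega : 1 ≤ n)
  refine ⟨n * n, fun k hk => ?_⟩
  set m := k / (n - 1) + 1 with hm
  have hkm : k ≤ m * (n - 1) := by
    have := Nat.div_add_mod k (n - 1)
    have := Nat.mod_lt k (show n - 1 > 0 by omega)
    rw [hm, add_mul, one_mul, mul_comm (k / (n - 1))]
    omega
  have hmk : m * (n - 1) ≤ k + n := by
    have := Nat.div_mul_le_self k (n - 1)
    rw [hm, add_mul, one_mul]
    omega
  refine ⟨n, KEdge n m, inferInstance, fun e => e.2.val, hn2, fun e => e.2.2.ne, ?_, ?_, ?_⟩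
  · intro S hne huniv
    have hs : (S.toFinset : Set (Fin n)) = S := Set.coe_toFinset S
    rw [← hs, cut_card]
    have h1 : 1 ≤ S.toFinset.card := by
      rw [Nat.one_le_iff_ne_zero, ne_eq, Finset.card_eq_zero, Set.toFinset_eq_empty]
      exact hne.ne_empty
    have h2 : S.toFinset.card < n := by
      have : S.toFinset ⊂ Finset.univ := Finset.ssubset_univ_iff.mpr (by simpa using huniv)
      simpa using Finset.card_lt_card this
    refine hkm.trans (Nat.mul_le_mul_left m ?_)
    obtain ⟨a, ha⟩ : ∃ a, S.toFinset.card = a + 1 := ⟨S.toFinset.card - 1, by omega⟩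
    rw [ha]
    have : a + 1 < n := ha ▸ h2
    obtain ⟨b, hb⟩ : ∃ b, n = a + 1 + (b + 1) := ⟨n - a - 2, by omega⟩
    subst hb
    simp only [Nat.add_sub_cancel_left, Nat.add_succ_sub_one]
    nlinarith [Nat.zero_le (a * b)]
  · -- the star at vertex 0 is a spanning tree
    have hm0 : 0 < m := Nat.succ_pos _
    let v0 : Fin n := ⟨0, by omega⟩
    let f : {v : Fin n // v0 < v} → KEdge n m := fun v => (⟨0, hm0⟩, ⟨(v0, v.val), v.2⟩)
    have hf : Function.Injective f := by
      intro a b h
      simpa [f, Subtype.ext_iff] using h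
    refine ⟨Finset.univ.image f, ?_, ?_⟩
    · rw [Finset.card_image_of_injective _ hf, Finset.card_univ, Fintype.card_subtype,
        Finset.filter_lt_eq_Ioi, Fin.card_Ioi, Fintype.card_fin]
      simp only [v0]
      omega
    · have hG : (SimpleGraph.fromEdgeSet ((fun e : KEdge n m => s(e.2.val.1, e.2.val.2)) ''
          ((Finset.univ.image f : Finset (KEdge n m)) : Set (KEdge n m))))
          = SimpleGraph.starGraph v0 := by
        ext u v
        simp only [SimpleGraph.fromEdgeSet_adj, Set.mem_image, Finset.mem_coe, Finset.mem_image,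
          Finset.mem_univ, true_and, SimpleGraph.starGraph_adj]
        constructor
        · rintro ⟨⟨e, ⟨w, rfl⟩, hw⟩, hne⟩
          simp only [f] at hw
          rw [Sym2.eq_iff] at hw
          rcases hw with ⟨h1, -⟩ | ⟨h1, -⟩
          · exact ⟨hne, Or.inl h1.symm⟩
          · exact ⟨hne, Or.inr h1.symm⟩
        · rintro ⟨hne, h | h⟩
          · have : v0 < v := lt_of_le_of_ne (Fin.le_def.mpr (Nat.zero_le _)) (h ▸ hne)
            exact ⟨⟨f ⟨v, this⟩, ⟨_, rfl⟩, by simp [f, h]⟩, hne⟩
          · have : v0 < u := lt_of_le_of_ne (Fin.le_def.mpr (Nat.zero_le _)) (h ▸ hne.symm)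
            exact ⟨⟨f ⟨u, this⟩, ⟨_, rfl⟩, by simp [f, h, Sym2.eq_swap]⟩, hne⟩
      rw [hG]
      exact SimpleGraph.isTree_starGraph v0
  · rintro T ⟨hcard, htree⟩
    rw [Fintype.card_fin] at hcard
    let col := htree.coloringTwo
    let S : Finset (Fin n) := Finset.univ.filter (fun v => col v = 0)
    have hcross : ∀ e ∈ T, (e.2.val.1 ∈ S ↔ e.2.val.2 ∉ S) := by
      intro e he
      have hadj : (SimpleGraph.fromEdgeSet ((fun e : KEdge n m => s(e.2.val.1, e.2.val.2)) ''
          (T : Set (KEdge n m)))).Adj e.2.val.1 e.2.val.2 := by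
        rw [SimpleGraph.fromEdgeSet_adj]
        exact ⟨⟨e, he, rfl⟩, e.2.2.ne⟩
      have hcol := col.valid hadj
      simp only [S, Finset.mem_filter, Finset.mem_univ, true_and]
      revert hcol
      generalize col e.2.val.1 = x
      generalize col e.2.val.2 = y
      revert x y
      decide
    have hTS : cut (fun e : KEdge n m => e.2.val) T (S : Set (Fin n))
        = (T : Set (KEdge n m)) := by
      ext e
      simp only [cut, Set.mem_ofPred_eq, Finset.mem_coe]
      exact ⟨fun h => h.1, fun h => ⟨h, hcross e h⟩⟩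
    obtain ⟨e0, he0⟩ : T.Nonempty := Finset.card_pos.mp (by omega)
    have hx := hcross e0 he0
    refine ⟨(S : Set (Fin n)), ?_, ?_, ?_⟩
    · by_cases h : e0.2.val.1 ∈ S
      · exact ⟨_, h⟩
      · exact ⟨e0.2.val.2, not_not.mp fun h2 => h (hx.mpr h2)⟩
    · intro hu
      have h1 : e0.2.val.1 ∈ (S : Set (Fin n)) := hu ▸ Set.mem_univ _
      have h2 : e0.2.val.2 ∈ (S : Set (Fin n)) := hu ▸ Set.mem_univ _
      exact hx.mp h1 h2
    rw [hTS, cut_card, Nat.card_coe_set_eq, Set.ncard_coe_finset]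
    have hS : S.card ≤ n := (Finset.card_le_univ S).trans (Fintype.card_fin n).le
    have hkpos : (0 : ℝ) < k := by
      have : 0 < n * n := Nat.mul_pos (by omega) (by omega)
      exact_mod_cast (by omega : 0 < k)
    have hT : (T.card : ℝ) = n - 1 := by
      rw [eq_sub_iff_add_eq]; exact_mod_cast hcard
    rw [hT, div_mul_eq_mul_div, div_lt_iff₀ hkpos]
    push_cast [Nat.cast_sub hS]
    rcases le_or_gt 4 ε with h4 | h4
    · have h0 : (0 : ℝ) ≤ (m : ℝ) * ((S.card : ℝ) * ((n : ℝ) - S.card)) :=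
        mul_nonneg (Nat.cast_nonneg _) (mul_nonneg (Nat.cast_nonneg _)
          (sub_nonneg.mpr (by exact_mod_cast hS)))
      have h1 : (4 - ε) * ((m : ℝ) * ((S.card : ℝ) * ((n : ℝ) - S.card))) ≤ 0 :=
        mul_nonpos_of_nonpos_of_nonneg (by linarith) h0
      have h2 : (0 : ℝ) < ((n : ℝ) - 1) * k := by
        have : (2 : ℝ) ≤ n := by exact_mod_cast hn2
        nlinarith
      linarith
    · have hprod : (S.card : ℝ) * ((n : ℝ) - S.card) ≤ (n : ℝ) ^ 2 / 4 := by
        nlinarith [sq_nonneg ((n : ℝ) - 2 * S.card)]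
      have hm' : (m : ℝ) * ((n : ℝ) - 1) ≤ k + n := by
        have : ((m * (n - 1) : ℕ) : ℝ) ≤ ((k + n : ℕ) : ℝ) := by exact_mod_cast hmk
        push_cast [Nat.cast_sub (show 1 ≤ n by omega)] at this
        exact this
      have hk' : (n : ℝ) * n ≤ k := by exact_mod_cast hk
      have hn2' : (2 : ℝ) ≤ n := by exact_mod_cast hn2
      -- it suffices to compare with (n - 1)^2
      have key : (4 - ε) * ((k : ℝ) + n) * ((n : ℝ) ^ 2 / 4) < ((n : ℝ) - 1) ^ 2 * k := by
        have h1 : (n : ℝ) * ((n : ℝ) ^ 2) ≤ k * n := by nlinarith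
        have h2 : 16 * ((k : ℝ) * n) < ε * n * (k * n) :=
          mul_lt_mul_of_pos_right hn (by positivity)
        nlinarith [mul_nonneg hε.le (mul_nonneg (sq_nonneg (n : ℝ)) (Nat.cast_nonneg n))]
      have hA : (4 - ε) * ((m : ℝ) * ((S.card : ℝ) * ((n : ℝ) - S.card)))
          ≤ (4 - ε) * ((m : ℝ) * ((n : ℝ) ^ 2 / 4)) :=
        mul_le_mul_of_nonneg_left (mul_le_mul_of_nonneg_left hprod (Nat.cast_nonneg _))
          (by linarith)
      have hB : (4 - ε) * ((m : ℝ) * ((n : ℝ) ^ 2 / 4)) * ((n : ℝ) - 1)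
          < ((n : ℝ) - 1) * k * ((n : ℝ) - 1) := by
        have : (4 - ε) * ((n : ℝ) ^ 2 / 4) * ((m : ℝ) * ((n : ℝ) - 1))
            ≤ (4 - ε) * ((n : ℝ) ^ 2 / 4) * (k + n) :=
          mul_le_mul_of_nonneg_left hm' (mul_nonneg (by linarith) (by positivity))
        nlinarith
      have hC := lt_of_mul_lt_mul_right hB (by linarith)
      exact lt_of_le_of_lt hA hC
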