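import Vale.Agent.P061.Apex.Main

open Vale.Agent.P061.Apex Vale.Agent.P061.Treewidth

/-- The strong thin tree conjecture for surfaces plus boundedly many apices. -/
theorem Vale.Agent.Results.P061.SurfacePlusApices.result :
    ∀ t g : ℕ, ∀ (V E : Type) [Fintype V] [Fintype E] (ends : E → V × V) (k : ℕ) (A : Finset V),
      Nonempty V → (∀ e, (ends e).1 ≠ (ends e).2) → A.card ≤ t →
      EulerGenusAtMost ends (awayEdges ends ↑A) g → 1 ≤ k → EdgeConnected ends k →
      ∃ T : Finset E, IsSpanningTree ends T ∧ ∀ S : Set V,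
        k * (cutEdges ends T S).ncard
          ≤ 1600 * (t + 1) * (g + 1) * (cutEdges ends Finset.univ S).ncard :=
  fun t g V E _ _ ends k A hV _ hA hg hk hc => thin_tree V E ends k g t A hV hA hg hk hc
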